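import Mathlib

namespace Vale.Agent.Results.P123.KrylovReduction

open scoped InnerProductSpace
open Polynomial

universe u

/-- The numerical range `W(A) = {⟨A x, x⟩ : ‖x‖ = 1}`. Mathlib's inner product `inner ℂ u v` is
linear in `v`, so the quantity `⟨A x, x⟩` of the problem (linear in the first slot) is
`inner ℂ x (A x)`. -/
def numRange {H : Type u} [NormedAddCommGroup H] [InnerProductSpace ℂ H]
    (A : H →L[ℂ] H) : Set ℂ :=
  {z | ∃ x : H, ‖x‖ = 1 ∧ z = inner ℂ x (A x)}

/-- The Crouzeix-type inequality with constant `K` on the space `H` for polynomials of degree at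
most `d`: whenever `|P| ≤ M` on `W(A)`, one has `‖P(A)‖ ≤ K * M`. -/
def CrouzeixBound (K : ℝ) (d : ℕ) (H : Type u) [NormedAddCommGroup H]
    [InnerProductSpace ℂ H] : Prop :=
  ∀ (A : H →L[ℂ] H) (P : ℂ[X]) (M : ℝ), P.natDegree ≤ d →
    (∀ z ∈ numRange A, ‖P.eval z‖ ≤ M) → ‖aeval A P‖ ≤ K * M

section Krylov

variable {H : Type u} [NormedAddCommGroup H] [InnerProductSpace ℂ H]

/-- The Krylov subspace spanned by `x, A x, ..., A^d x`. -/
def krylov (A : H →L[ℂ] H) (d : ℕ) (x : H) : Submodule ℂ H :=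
  Submodule.span ℂ (Set.range (fun k : Fin (d + 1) => (A ^ (k : ℕ)) x))

lemma pow_mem_krylov (A : H →L[ℂ] H) (d : ℕ) (x : H) {k : ℕ} (hk : k ≤ d) :
    (A ^ k) x ∈ krylov A d x :=
  Submodule.subset_span ⟨⟨k, Nat.lt_succ_of_le hk⟩, rfl⟩

instance krylov_finite (A : H →L[ℂ] H) (d : ℕ) (x : H) :
    FiniteDimensional ℂ (krylov A d x) :=
  FiniteDimensional.span_of_finite ℂ (Set.finite_range _)

lemma finrank_krylov_le (A : H →L[ℂ] H) (d : ℕ) (x : H) :
    Module.finrank ℂ (krylov A d x) ≤ d + 1 := by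
  have h := finrank_range_le_card (R := ℂ) (fun k : Fin (d + 1) => (A ^ (k : ℕ)) x)
  rw [Fintype.card_fin] at h
  exact h

/-- The compression of `A` to the Krylov subspace. -/
noncomputable def compr (A : H →L[ℂ] H) (d : ℕ) (x : H) :
    (krylov A d x) →L[ℂ] (krylov A d x) :=
  (krylov A d x).orthogonalProjectionOnto ∘L A ∘L (krylov A d x).subtypeL

lemma numRange_compr_subset (A : H →L[ℂ] H) (d : ℕ) (x : H) :
    numRange (compr A d x) ⊆ numRange A := by
  rintro z ⟨v, hv, rfl⟩
  refine ⟨(v : H), by simpa using hv, ?_⟩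
  simp [compr]

lemma compr_pow_apply (A : H →L[ℂ] H) (d : ℕ) (x : H) (hx : x ∈ krylov A d x) :
    ∀ k : ℕ, k ≤ d → (((compr A d x) ^ k) ⟨x, hx⟩ : H) = (A ^ k) x := by
  intro k
  induction k with
  | zero => intro _; simp
  | succ k ih =>
    intro hk
    have hk' : k ≤ d := Nat.le_of_succ_le hk
    have h1 : ((compr A d x) ^ (k + 1)) ⟨x, hx⟩
        = (compr A d x) (((compr A d x) ^ k) ⟨x, hx⟩) := by
      rw [pow_succ']; rfl
    rw [h1]
    have h2 : ((compr A d x) (((compr A d x) ^ k) ⟨x, hx⟩) : H)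
        = (krylov A d x).starProjection (A ((((compr A d x) ^ k) ⟨x, hx⟩ : krylov A d x) : H)) := by
      rfl
    rw [h2, ih hk']
    have h3 : A ((A ^ k) x) = (A ^ (k + 1)) x := by
      rw [pow_succ']; rfl
    rw [h3]
    exact (Submodule.starProjection_eq_self_iff).2 (pow_mem_krylov A d x hk)

lemma compr_aeval_apply (A : H →L[ℂ] H) (d : ℕ) (x : H) (hx : x ∈ krylov A d x)
    (P : ℂ[X]) (hP : P.natDegree ≤ d) :
    ((aeval (compr A d x) P) ⟨x, hx⟩ : H) = (aeval A P) x := by
  have hd : P.natDegree < d + 1 := Nat.lt_succ_of_le hP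
  rw [aeval_eq_sum_range' hd, aeval_eq_sum_range' hd]
  simp only [sum_apply, smul_apply,
    Submodule.coe_sum, Submodule.coe_smul]
  refine Finset.sum_congr rfl (fun k hk => ?_)
  rw [compr_pow_apply A d x hx k (Nat.le_of_lt_succ (Finset.mem_range.1 hk))]

end Krylov

/-- **Reduction of the degree-`d` Crouzeix inequality to dimension `d + 1`.**
If the inequality `‖P(A)‖ ≤ K * sup_{W(A)} |P|` holds for all polynomials of degree at most `d`
and all operators on nonzero complex inner product spaces of dimension at most `d + 1`, then it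
holds for all polynomials of degree at most `d` and all bounded operators on every nonzero
complex Hilbert space. -/
theorem result (K : ℝ) (d : ℕ)
    (hfin : ∀ (V : Type u) [NormedAddCommGroup V] [InnerProductSpace ℂ V]
      [FiniteDimensional ℂ V] [Nontrivial V],
      Module.finrank ℂ V ≤ d + 1 → CrouzeixBound K d V) :
    ∀ (H : Type u) [NormedAddCommGroup H] [InnerProductSpace ℂ H] [CompleteSpace H]
      [Nontrivial H], CrouzeixBound K d H := by
  intro H _ _ _ _ A P M hP hM
  have key : ∀ x : H, x ≠ 0 → ‖(aeval A P) x‖ ≤ K * M * ‖x‖ := by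
    intro x hx0
    have hx : x ∈ krylov A d x := by
      have := pow_mem_krylov A d x (Nat.zero_le d)
      simpa using this
    have : Nontrivial (krylov A d x) :=
      ⟨⟨⟨x, hx⟩, 0, fun h => hx0 (congrArg Subtype.val h)⟩⟩
    have hB := hfin (krylov A d x) (finrank_krylov_le A d x) (compr A d x) P M hP
      (fun z hz => hM z (numRange_compr_subset A d x hz))
    have h1 : ‖(aeval A P) x‖ = ‖(aeval (compr A d x) P) ⟨x, hx⟩‖ := by
      rw [← compr_aeval_apply A d x hx P hP]; rfl
    rw [h1]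
    calc ‖(aeval (compr A d x) P) ⟨x, hx⟩‖
        ≤ ‖aeval (compr A d x) P‖ * ‖(⟨x, hx⟩ : krylov A d x)‖ :=
          ContinuousLinearMap.le_opNorm _ _
      _ ≤ K * M * ‖x‖ := by
          apply mul_le_mul_of_nonneg_right hB (norm_nonneg _)
  obtain ⟨x0, hx0⟩ := exists_ne (0 : H)
  have hKM : 0 ≤ K * M := by
    have h := key x0 hx0
    have hpos : 0 < ‖x0‖ := norm_pos_iff.2 hx0
    by_contra hneg
    rw [not_le] at hneg
    have : K * M * ‖x0‖ < 0 := mul_neg_of_neg_of_pos hneg hpos
    linarith [norm_nonneg ((aeval A P) x0)]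
  refine ContinuousLinearMap.opNorm_le_bound _ hKM (fun x => ?_)
  by_cases hx0 : x = 0
  · subst hx0; simp
  · exact key x hx0

end Vale.Agent.Results.P123.KrylovReduction
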